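import Vale.Agent.P365.Torus.Base

/-!
# P365-T2, X-CNT, geometry of the block families (helper784)

For every centre `c : Tor N` and every scale `ρ` three functions with values in `[0,1]`:
`fB c ρ 0` = bump of radius `2ρ` at `c`, `fB c ρ 1, 2` = bumps of radius `8ρ` at
`c + (4ρ, 0)`, `c + (0, 4ρ)` (linear coordinates on the ball of radius `2ρ` around `c`).

* `fB_nonneg`, `fB_le_one`, `fB_lip`, `fB_zero` (support in the ball of radius `12ρ`);
* `fB_sum` : `∑ c k, (f x - f y)² ≤ 24 nrm (x-y)²` (vector Lipschitz, all centres);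
* `fB_lower` : for `nrm (x - c) ≤ ρ`, all `y` : `min (nrm (x-y)²/ρ²) 1 / 64 ≤ ∑ k, (f x - f y)²`;
* `card_centres` : at least `ρ²` centres `c` with `2 * nrm (v - c) ≤ ρ`.
-/

set_option linter.all false

namespace P365T2.H784

open P365L Finset

variable {N : ℕ} [NeZero N]

/-- bump of radius `R` at `z` -/
noncomputable def bump (z : Tor N) (R : ℕ) (x : Tor N) : ℝ := max 0 (1 - (nrm (x - z) : ℝ) / R)

theorem bump_nonneg (z : Tor N) (R : ℕ) (x : Tor N) : 0 ≤ bump z R x := le_max_left _ _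

theorem bump_le_one (z : Tor N) (R : ℕ) (x : Tor N) : bump z R x ≤ 1 := by
  unfold bump
  refine max_le zero_le_one ?_
  have : (0 : ℝ) ≤ (nrm (x - z) : ℝ) / R := by positivity
  linarith

theorem nrm_tri (x y z : Tor N) : |(nrm (x - z) : ℝ) - nrm (y - z)| ≤ nrm (x - y) := by
  have h1 : nrm (x - z) ≤ nrm (x - y) + nrm (y - z) := by
    have := nrm_add_le (x - y) (y - z)
    rwa [sub_add_sub_cancel] at this
  have h2 : nrm (y - z) ≤ nrm (x - y) + nrm (x - z) := by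
    have := nrm_add_le (y - x) (x - z)
    rwa [sub_add_sub_cancel, nrm_sub_comm y x] at this
  have h1' : (nrm (x - z) : ℝ) ≤ nrm (x - y) + nrm (y - z) := by exact_mod_cast h1
  have h2' : (nrm (y - z) : ℝ) ≤ nrm (x - y) + nrm (x - z) := by exact_mod_cast h2
  rw [abs_le]
  constructor <;> linarith

theorem bump_lip (z : Tor N) (R : ℕ) (x y : Tor N) :
    |bump z R x - bump z R y| ≤ (nrm (x - y) : ℝ) / R := by
  unfold bump
  rw [max_comm 0, max_comm 0]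
  refine (abs_max_sub_max_le_abs _ _ _).trans ?_
  have h1 : (1 - (nrm (x - z) : ℝ) / R) - (1 - (nrm (y - z) : ℝ) / R) =
      -(((nrm (x - z) : ℝ) - nrm (y - z)) / R) := by ring
  rw [h1, abs_neg, abs_div, Nat.abs_cast]
  exact div_le_div_of_nonneg_right (nrm_tri x y z) (Nat.cast_nonneg _)

theorem bump_of_le {z : Tor N} {R : ℕ} (hR : 0 < R) {x : Tor N} (h : nrm (x - z) ≤ R) :
    bump z R x = 1 - (nrm (x - z) : ℝ) / R := by
  unfold bump
  refine max_eq_right ?_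
  have h1 : (nrm (x - z) : ℝ) / R ≤ 1 := by
    rw [div_le_one (by exact_mod_cast hR)]
    exact_mod_cast h
  linarith

theorem bump_zero {z : Tor N} {R : ℕ} (hR : 0 < R) {x : Tor N} (h : R ≤ nrm (x - z)) :
    bump z R x = 0 := by
  unfold bump
  refine max_eq_left ?_
  have h1 : 1 ≤ (nrm (x - z) : ℝ) / R := by
    rw [one_le_div (by exact_mod_cast hR)]
    exact_mod_cast h
  linarith

/-- number of centres whose bump sees `x` -/
theorem card_lt_le {R : ℕ} (hR : 0 < R) (x : Tor N) :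
    ((univ.filter fun z : Tor N => nrm (x - z) < R).card : ℝ) ≤ 4 * (R : ℝ) ^ 2 := by
  have h1 : (univ.filter fun z : Tor N => nrm (x - z) < R).card ≤ (ball N (R - 1)).card := by
    refine Finset.card_le_card_of_injOn (fun z => x - z) ?_ ?_
    · intro z hz
      have hz' := (mem_filter.1 hz).2
      show x - z ∈ ball N (R - 1)
      rw [mem_ball]
      omega
    · intro a _ b _ hab
      exact sub_right_injective hab
  have h2 : (ball N (R - 1)).card ≤ (2 * (R - 1) + 1) ^ 2 := card_ball_le _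
  have h3 : ((univ.filter fun z : Tor N => nrm (x - z) < R).card : ℝ) ≤
      ((2 * (R - 1) + 1 : ℕ) : ℝ) ^ 2 := by exact_mod_cast h1.trans h2
  refine h3.trans ?_
  have h4 : ((2 * (R - 1) + 1 : ℕ) : ℝ) ≤ 2 * R := by
    have : 2 * (R - 1) + 1 ≤ 2 * R := by omega
    exact_mod_cast this
  have h5 : (0 : ℝ) ≤ ((2 * (R - 1) + 1 : ℕ) : ℝ) := Nat.cast_nonneg _
  nlinarith

/-- **vector Lipschitz, all centres** -/
theorem bump_sum {R : ℕ} (hR : 0 < R) (x y : Tor N) :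
    ∑ z : Tor N, (bump z R x - bump z R y) ^ 2 ≤ 8 * (nrm (x - y) : ℝ) ^ 2 := by
  classical
  have hR' : (0 : ℝ) < R := by exact_mod_cast hR
  set S : Finset (Tor N) := (univ.filter fun z : Tor N => nrm (x - z) < R) ∪
    (univ.filter fun z : Tor N => nrm (y - z) < R) with hS
  have h0 : ∀ z ∉ S, (bump z R x - bump z R y) ^ 2 = 0 := by
    intro z hz
    rw [hS, mem_union, mem_filter, mem_filter] at hz
    push Not at hz
    have h1 := hz.1 (mem_univ _)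
    have h2 := hz.2 (mem_univ _)
    rw [bump_zero hR h1, bump_zero hR h2]
    ring
  have h1 : ∑ z : Tor N, (bump z R x - bump z R y) ^ 2 = ∑ z ∈ S, (bump z R x - bump z R y) ^ 2 :=
    (Finset.sum_subset (subset_univ S) fun z _ hz => h0 z hz).symm
  have h2 : ∀ z ∈ S, (bump z R x - bump z R y) ^ 2 ≤ (nrm (x - y) : ℝ) ^ 2 / R ^ 2 := by
    intro z _
    rw [← div_pow, ← sq_abs]
    exact pow_le_pow_left₀ (abs_nonneg _) (bump_lip z R x y) 2
  have h3 : (S.card : ℝ) ≤ 8 * (R : ℝ) ^ 2 := by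
    have h4 : (S.card : ℝ) ≤ ((univ.filter fun z : Tor N => nrm (x - z) < R).card : ℝ) +
        ((univ.filter fun z : Tor N => nrm (y - z) < R).card : ℝ) := by
      exact_mod_cast Finset.card_union_le _ _
    have h5 := card_lt_le hR x
    have h6 := card_lt_le hR y
    linarith
  rw [h1]
  refine (Finset.sum_le_sum h2).trans ?_
  rw [Finset.sum_const, nsmul_eq_mul, mul_div_assoc', div_le_iff₀ (by positivity)]
  nlinarith [mul_le_mul_of_nonneg_right h3 (sq_nonneg (nrm (x - y) : ℝ))]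

/-! ### the linear coordinates -/

/-- shifts of the second and third function -/
def sh (N : ℕ) (ρ : ℕ) : Fin 3 → Tor N
  | 0 => 0
  | 1 => ((4 * ρ : ℕ), 0)
  | 2 => (0, (4 * ρ : ℕ))

/-- radii -/
def rad (ρ : ℕ) : Fin 3 → ℕ
  | 0 => 2 * ρ
  | 1 => 8 * ρ
  | 2 => 8 * ρ

/-- **the family of the block with centre `c` and scale `ρ`** -/
noncomputable def fB (c : Tor N) (ρ : ℕ) (k : Fin 3) : Tor N → ℝ := bump (c + sh N ρ k) (rad ρ k)

theorem rad_pos {ρ : ℕ} (hρ : 0 < ρ) (k : Fin 3) : 0 < rad ρ k := by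
  fin_cases k <;> simp [rad] <;> omega

theorem two_rho_le_rad (ρ : ℕ) (k : Fin 3) : 2 * ρ ≤ rad ρ k := by
  fin_cases k <;> simp [rad] <;> omega

theorem fB_nonneg (c : Tor N) (ρ : ℕ) (k : Fin 3) (x : Tor N) : 0 ≤ fB c ρ k x :=
  bump_nonneg _ _ _

theorem fB_le_one (c : Tor N) (ρ : ℕ) (k : Fin 3) (x : Tor N) : fB c ρ k x ≤ 1 :=
  bump_le_one _ _ _

theorem abs_fB_le_one (c : Tor N) (ρ : ℕ) (k : Fin 3) (x : Tor N) : |fB c ρ k x| ≤ 1 := by
  rw [abs_of_nonneg (fB_nonneg c ρ k x)]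
  exact fB_le_one c ρ k x

theorem fB_lip {ρ : ℕ} (hρ : 0 < ρ) (c : Tor N) (k : Fin 3) (x y : Tor N) :
    |fB c ρ k x - fB c ρ k y| ≤ (nrm (x - y) : ℝ) / (2 * ρ) := by
  refine (bump_lip _ _ x y).trans ?_
  have h1 : ((2 * ρ : ℕ) : ℝ) ≤ (rad ρ k : ℝ) := by exact_mod_cast two_rho_le_rad ρ k
  push_cast at h1
  exact div_le_div_of_nonneg_left (Nat.cast_nonneg _) (by positivity) h1

theorem nrm_sh_le (ρ : ℕ) (k : Fin 3) : nrm (sh N ρ k) ≤ 4 * ρ := by
  have h' : (((4 * ρ : ℕ) : ZMod N).valMinAbs).natAbs ≤ 4 * ρ := by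
    have h := natAbs_valMinAbs_intCast_le (N := N) ((4 * ρ : ℕ) : ℤ)
    have h1 : (((4 * ρ : ℕ) : ℤ) : ZMod N) = ((4 * ρ : ℕ) : ZMod N) := Int.cast_natCast _
    rwa [h1, Int.natAbs_natCast] at h
  fin_cases k
  · simp [sh, nrm]
  · simp only [sh, nrm]
    exact max_le h' (by simp)
  · simp only [sh, nrm]
    exact max_le (by simp) h'

/-- support -/
theorem fB_zero {ρ : ℕ} (hρ : 0 < ρ) (c : Tor N) (k : Fin 3) {x : Tor N}
    (h : 12 * ρ ≤ nrm (x - c)) : fB c ρ k x = 0 := by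
  refine bump_zero (rad_pos hρ k) ?_
  have h1 : nrm (x - c) ≤ nrm (x - (c + sh N ρ k)) + nrm (sh N ρ k) := by
    have := nrm_add_le (x - (c + sh N ρ k)) (sh N ρ k)
    have h2 : x - (c + sh N ρ k) + sh N ρ k = x - c := by abel
    rwa [h2] at this
  have h2 := nrm_sh_le (N := N) ρ k
  have h3 : rad ρ k ≤ 8 * ρ := by fin_cases k <;> simp [rad] <;> omega
  omega

/-- **vector Lipschitz, all centres, all three functions** -/
theorem fB_sum {ρ : ℕ} (hρ : 0 < ρ) (x y : Tor N) :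
    ∑ c : Tor N, ∑ k : Fin 3, (fB c ρ k x - fB c ρ k y) ^ 2 ≤ 24 * (nrm (x - y) : ℝ) ^ 2 := by
  rw [Finset.sum_comm]
  have h1 : ∀ k : Fin 3, ∑ c : Tor N, (fB c ρ k x - fB c ρ k y) ^ 2 ≤
      8 * (nrm (x - y) : ℝ) ^ 2 := by
    intro k
    have h2 := bump_sum (rad_pos hρ k) x y
    rw [← Equiv.sum_comp (Equiv.addRight (sh N ρ k))] at h2
    exact h2
  refine (Finset.sum_le_sum fun k _ => h1 k).trans ?_
  rw [Finset.sum_const, Finset.card_univ, Fintype.card_fin, nsmul_eq_mul]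
  push_cast
  linarith

/-- the norm at the shifted centre is linear in the first coordinate -/
theorem nrm_shift_fst {ρ : ℕ} (hN : 12 * ρ < N) {c x : Tor N} (h : nrm (x - c) ≤ 2 * ρ) :
    (nrm (x - (c + sh N ρ 1)) : ℝ) = 4 * ρ - (((x - c).1.valMinAbs : ℤ) : ℝ) := by
  set a : ℤ := (x - c).1.valMinAbs with ha
  have ha1 : a.natAbs ≤ 2 * ρ := (le_max_left _ _).trans h
  have hb1 : (x - c).2.valMinAbs.natAbs ≤ 2 * ρ := (le_max_right _ _).trans h
  have h1 : (x - (c + sh N ρ 1)).1 = (((a - 4 * ρ : ℤ)) : ZMod N) := by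
    have h2 : ((a : ℤ) : ZMod N) = (x - c).1 := ZMod.coe_valMinAbs _
    push_cast
    rw [h2]
    simp only [sh, Prod.fst_sub, Prod.fst_add]
    push_cast
    ring
  have h2 : (x - (c + sh N ρ 1)).1.valMinAbs = a - 4 * ρ := by
    rw [ZMod.valMinAbs_spec]
    refine ⟨h1, ?_, ?_⟩ <;> omega
  have h3 : (x - (c + sh N ρ 1)).2 = (x - c).2 := by
    simp [sh]
  unfold nrm
  rw [h2, h3]
  have h4 : max (a - 4 * ρ).natAbs (x - c).2.valMinAbs.natAbs = (4 * ρ - a).toNat := by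
    rw [max_eq_left (by omega)]
    omega
  rw [h4]
  have h5 : (((4 * ρ - a).toNat : ℤ) : ℝ) = ((4 * ρ - a : ℤ) : ℝ) := by
    rw [Int.toNat_of_nonneg (by omega)]
  rw [Int.cast_natCast] at h5
  rw [h5]
  push_cast
  ring

theorem nrm_shift_snd {ρ : ℕ} (hN : 12 * ρ < N) {c x : Tor N} (h : nrm (x - c) ≤ 2 * ρ) :
    (nrm (x - (c + sh N ρ 2)) : ℝ) = 4 * ρ - (((x - c).2.valMinAbs : ℤ) : ℝ) := by
  set a : ℤ := (x - c).2.valMinAbs with ha
  have ha1 : a.natAbs ≤ 2 * ρ := (le_max_right _ _).trans h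
  have hb1 : (x - c).1.valMinAbs.natAbs ≤ 2 * ρ := (le_max_left _ _).trans h
  have h1 : (x - (c + sh N ρ 2)).2 = (((a - 4 * ρ : ℤ)) : ZMod N) := by
    have h2 : ((a : ℤ) : ZMod N) = (x - c).2 := ZMod.coe_valMinAbs _
    push_cast
    rw [h2]
    simp only [sh, Prod.snd_sub, Prod.snd_add]
    push_cast
    ring
  have h2 : (x - (c + sh N ρ 2)).2.valMinAbs = a - 4 * ρ := by
    rw [ZMod.valMinAbs_spec]
    refine ⟨h1, ?_, ?_⟩ <;> omega
  have h3 : (x - (c + sh N ρ 2)).1 = (x - c).1 := by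
    simp [sh]
  unfold nrm
  rw [h2, h3]
  have h4 : max (x - c).1.valMinAbs.natAbs (a - 4 * ρ).natAbs = (4 * ρ - a).toNat := by
    rw [max_eq_right (by omega)]
    omega
  rw [h4]
  have h5 : (((4 * ρ - a).toNat : ℤ) : ℝ) = ((4 * ρ - a : ℤ) : ℝ) := by
    rw [Int.toNat_of_nonneg (by omega)]
  rw [Int.cast_natCast] at h5
  rw [h5]
  push_cast
  ring

/-- `nrm` of a difference from the integer coordinates -/
theorem nrm_sub_sq_le (c x y : Tor N) : (nrm (x - y) : ℝ) ^ 2 ≤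
    ((((x - c).1.valMinAbs : ℤ) : ℝ) - (((y - c).1.valMinAbs : ℤ) : ℝ)) ^ 2 +
    ((((x - c).2.valMinAbs : ℤ) : ℝ) - (((y - c).2.valMinAbs : ℤ) : ℝ)) ^ 2 := by
  have key : ∀ u w : ZMod N, (((u - w).valMinAbs.natAbs : ℕ) : ℝ) ^ 2 ≤
      (((u.valMinAbs : ℤ) : ℝ) - ((w.valMinAbs : ℤ) : ℝ)) ^ 2 := by
    intro u w
    have h1 : u - w = ((u.valMinAbs - w.valMinAbs : ℤ) : ZMod N) := by
      rw [Int.cast_sub, ZMod.coe_valMinAbs, ZMod.coe_valMinAbs]
    have h2 : (u - w).valMinAbs.natAbs ≤ (u.valMinAbs - w.valMinAbs).natAbs := by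
      rw [h1]
      exact natAbs_valMinAbs_intCast_le _
    have h3 : (((u - w).valMinAbs.natAbs : ℕ) : ℝ) ≤
        (((u.valMinAbs - w.valMinAbs).natAbs : ℕ) : ℝ) := by exact_mod_cast h2
    have h4 : (((u.valMinAbs - w.valMinAbs).natAbs : ℕ) : ℝ) ^ 2 =
        (((u.valMinAbs : ℤ) : ℝ) - ((w.valMinAbs : ℤ) : ℝ)) ^ 2 := by
      rw [← Int.cast_natCast (R := ℝ), Int.natCast_natAbs, Int.cast_abs, sq_abs]
      push_cast
      ring
    rw [← h4]
    exact pow_le_pow_left₀ (Nat.cast_nonneg _) h3 2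
  have h1 := key (x - c).1 (y - c).1
  have h2 := key (x - c).2 (y - c).2
  have e1 : (x - c).1 - (y - c).1 = (x - y).1 := by simp
  have e2 : (x - c).2 - (y - c).2 = (x - y).2 := by simp
  rw [e1] at h1
  rw [e2] at h2
  have h3 : (nrm (x - y) : ℝ) ^ 2 ≤ (((x - y).1.valMinAbs.natAbs : ℕ) : ℝ) ^ 2 +
      (((x - y).2.valMinAbs.natAbs : ℕ) : ℝ) ^ 2 := by
    unfold nrm
    rcases le_total (x - y).1.valMinAbs.natAbs (x - y).2.valMinAbs.natAbs with h | h
    · rw [max_eq_right h]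
      nlinarith [sq_nonneg (((x - y).1.valMinAbs.natAbs : ℕ) : ℝ)]
    · rw [max_eq_left h]
      nlinarith [sq_nonneg (((x - y).2.valMinAbs.natAbs : ℕ) : ℝ)]
  linarith

/-- **lower bound on the ball of radius `ρ`, against every site** -/
theorem fB_lower {ρ : ℕ} (hρ : 0 < ρ) (hN : 12 * ρ < N) {c x : Tor N} (hx : nrm (x - c) ≤ ρ)
    (y : Tor N) :
    min ((nrm (x - y) : ℝ) ^ 2 / (ρ : ℝ) ^ 2) 1 / 64 ≤
      ∑ k : Fin 3, (fB c ρ k x - fB c ρ k y) ^ 2 := by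
  have hρ' : (0 : ℝ) < ρ := by exact_mod_cast hρ
  rw [Fin.sum_univ_three]
  by_cases hy : nrm (y - c) ≤ 2 * ρ
  · have hx2 : nrm (x - c) ≤ 2 * ρ := by omega
    have hp : ∀ z : Tor N, nrm (z - c) ≤ 2 * ρ → ∀ k : Fin 3, k ≠ 0 →
        nrm (z - (c + sh N ρ k)) ≤ 8 * ρ := by
      intro z hz k _
      have h1 : nrm (z - (c + sh N ρ k)) ≤ nrm (z - c) + nrm (sh N ρ k) := by
        have h2 : z - (c + sh N ρ k) = (z - c) + -sh N ρ k := by abel
        rw [h2, ← nrm_neg (sh N ρ k)]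
        exact nrm_add_le _ _
      have h2 := nrm_sh_le (N := N) ρ k
      omega
    have e1 : ∀ z : Tor N, nrm (z - c) ≤ 2 * ρ → fB c ρ 1 z =
        1 - (4 * ρ - (((z - c).1.valMinAbs : ℤ) : ℝ)) / (8 * ρ) := by
      intro z hz
      have h1 : fB c ρ 1 z = 1 - (nrm (z - (c + sh N ρ 1)) : ℝ) / (8 * ρ : ℕ) :=
        bump_of_le (by simp only [rad]; omega) (hp z hz 1 (by decide))
      rw [h1, nrm_shift_fst hN hz]
      push_cast
      ring
    have e2 : ∀ z : Tor N, nrm (z - c) ≤ 2 * ρ → fB c ρ 2 z =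
        1 - (4 * ρ - (((z - c).2.valMinAbs : ℤ) : ℝ)) / (8 * ρ) := by
      intro z hz
      have h1 : fB c ρ 2 z = 1 - (nrm (z - (c + sh N ρ 2)) : ℝ) / (8 * ρ : ℕ) :=
        bump_of_le (by simp only [rad]; omega) (hp z hz 2 (by decide))
      rw [h1, nrm_shift_snd hN hz]
      push_cast
      ring
    rw [e1 x hx2, e1 y hy, e2 x hx2, e2 y hy]
    have h1 := nrm_sub_sq_le c x y
    have h2 : min ((nrm (x - y) : ℝ) ^ 2 / (ρ : ℝ) ^ 2) 1 / 64 ≤
        (nrm (x - y) : ℝ) ^ 2 / (64 * (ρ : ℝ) ^ 2) := by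
      have h3 := min_le_left ((nrm (x - y) : ℝ) ^ 2 / (ρ : ℝ) ^ 2) 1
      have h4 : (nrm (x - y) : ℝ) ^ 2 / (64 * (ρ : ℝ) ^ 2) =
          (nrm (x - y) : ℝ) ^ 2 / (ρ : ℝ) ^ 2 / 64 := by
        field_simp
      rw [h4]
      exact div_le_div_of_nonneg_right h3 (by norm_num)
    refine h2.trans ?_
    set a := (((x - c).1.valMinAbs : ℤ) : ℝ)
    set a' := (((y - c).1.valMinAbs : ℤ) : ℝ)
    set b := (((x - c).2.valMinAbs : ℤ) : ℝ)
    set b' := (((y - c).2.valMinAbs : ℤ) : ℝ)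
    have h5 : (1 - (4 * (ρ : ℝ) - a) / (8 * ρ) - (1 - (4 * ρ - a') / (8 * ρ))) ^ 2 +
        (1 - (4 * (ρ : ℝ) - b) / (8 * ρ) - (1 - (4 * ρ - b') / (8 * ρ))) ^ 2 =
        ((a - a') ^ 2 + (b - b') ^ 2) / (64 * (ρ : ℝ) ^ 2) := by
      field_simp
      ring
    have h6 : (nrm (x - y) : ℝ) ^ 2 / (64 * (ρ : ℝ) ^ 2) ≤
        ((a - a') ^ 2 + (b - b') ^ 2) / (64 * (ρ : ℝ) ^ 2) :=
      div_le_div_of_nonneg_right h1 (by positivity)
    rw [← h5] at h6
    nlinarith [sq_nonneg (fB c ρ 0 x - fB c ρ 0 y)]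
  · have h0 : c + sh N ρ 0 = c := by simp [sh]
    have e1 : fB c ρ 0 y = 0 := by
      unfold fB
      rw [h0]
      refine bump_zero (by simp only [rad]; omega) ?_
      simp only [rad]
      omega
    have e2 : 1 / 2 ≤ fB c ρ 0 x := by
      unfold fB
      rw [h0, bump_of_le (by simp only [rad]; omega) (by simp only [rad]; omega)]
      simp only [rad]
      have h1 : (nrm (x - c) : ℝ) ≤ ρ := by exact_mod_cast hx
      have h2 : (nrm (x - c) : ℝ) / ((2 * ρ : ℕ) : ℝ) ≤ 1 / 2 := by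
        rw [div_le_iff₀ (by positivity)]
        push_cast
        linarith
      linarith
    rw [e1]
    have h1 : min ((nrm (x - y) : ℝ) ^ 2 / (ρ : ℝ) ^ 2) 1 / 64 ≤ 1 / 64 :=
      div_le_div_of_nonneg_right (min_le_right _ _) (by norm_num)
    nlinarith [sq_nonneg (fB c ρ 1 x - fB c ρ 1 y), sq_nonneg (fB c ρ 2 x - fB c ρ 2 y)]

/-- **at least `ρ²` centres near every site** -/
theorem card_centres {ρ : ℕ} (hN : ρ < N) (v : Tor N) :
    (ρ : ℝ) ^ 2 ≤ ((univ.filter fun c : Tor N => 2 * nrm (v - c) ≤ ρ).card : ℝ) := by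
  have h1 : (ball N (ρ / 2)).card ≤ (univ.filter fun c : Tor N => 2 * nrm (v - c) ≤ ρ).card := by
    refine Finset.card_le_card_of_injOn (fun z => v - z) ?_ ?_
    · intro z hz
      have hz' : nrm z ≤ ρ / 2 := mem_ball.1 hz
      show v - z ∈ univ.filter fun c : Tor N => 2 * nrm (v - c) ≤ ρ
      rw [mem_filter, sub_sub_cancel]
      exact ⟨mem_univ _, by omega⟩
    · intro a _ b _ hab
      exact sub_right_injective hab
  have h2 : (ball N (ρ / 2)).card = (2 * (ρ / 2) + 1) ^ 2 := card_ball (by omega)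
  have h3 : ρ ≤ 2 * (ρ / 2) + 1 := by omega
  have h4 : (ρ : ℝ) ^ 2 ≤ ((2 * (ρ / 2) + 1 : ℕ) : ℝ) ^ 2 :=
    pow_le_pow_left₀ (Nat.cast_nonneg _) (by exact_mod_cast h3) 2
  refine h4.trans ?_
  rw [h2] at h1
  exact_mod_cast h1

end P365T2.H784
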