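import Vale.Agent.P365.T2.One218
import Vale.Agent.P365.V4.FlowLoss548
import Vale.Agent.P365.T2.H784.Blk

/-!
# P365-T2, X-CNT: rows in heavy blocks (helper784)

Block functional `PhB f = ∑ k, (4 En (f k) + En (f k)²)` of a finite family with values in
`[-1,1]`, its one-site loss `lsB f x = ∑ k, (4 lossS (f k) x + lossS (f k)² x)`.

* `PhB_ge` : if `c U x y ≤ ∑ k (f_k x - f_k y)²` for `x ∈ S` and all `y`, then
  `4 c ∑_{x ∈ S} e_x m_x u_x ≤ PhB f`, `u_x = E_{P_x} U(x,.)`;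
* `lsB_ge` : `c² m_x u_x² / |κ| ≤ lsB f x` for `x ∈ S`;
* `heavy` : sum over the blocks; `heavy_torus` : all translates of the torus blocks `fB`:
  `ρ² (c² c1² / 3) min (4 c CF) A ∑_{v heavy} w_v m_v ≤ ∑_c min (PhB_c) A ∑_x w_x lsB_c x`.
-/

set_option linter.all false

namespace P365T2.H784

open P365L P365O P365T1 Vale.Agent.P365.J376 Finset

variable {ι : Type*} [Fintype ι] [DecidableEq ι] {A : Matrix ι ι ℝ} {W : ι → ℂ}
variable {κ : Type*} [Fintype κ]

/-- mean of the kernel `U` under `P_x` -/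
noncomputable def uU (A : Matrix ι ι ℝ) (W : ι → ℂ) (U : ι → ι → ℝ) (x : ι) : ℝ :=
  ∑ y, PP A W x y * U x y

/-- block functional -/
noncomputable def PhB (A : Matrix ι ι ℝ) (W : ι → ℂ) (f : κ → ι → ℝ) : ℝ :=
  ∑ k, PhE A W (f k)

/-- one-site loss of the block functional -/
noncomputable def lsB (A : Matrix ι ι ℝ) (W : ι → ℂ) (f : κ → ι → ℝ) (x : ι) : ℝ :=
  ∑ k, (4 * lossS A W (f k) x + lossS A W (fun y => f k y ^ 2) x)

theorem uU_nonneg (hA : A.IsSymm) (hW : ∀ x, (W x).im < 0) {U : ι → ι → ℝ}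
    (hU : ∀ x y, 0 ≤ U x y) (x : ι) : 0 ≤ uU A W U x :=
  Finset.sum_nonneg fun y _ => mul_nonneg (PP_nonneg hA hW x y) (hU x y)

theorem mm_mul_uU (hA : A.IsSymm) (hW : ∀ x, (W x).im < 0) (U : ι → ι → ℝ) (x : ι) :
    mm A W x * uU A W U x = ∑ y, (-(W y).im) * KK A W x y * U x y := by
  unfold uU
  rw [Finset.mul_sum]
  refine Finset.sum_congr rfl fun y _ => ?_
  have h := (mm_pos hA hW x).ne'
  unfold PP
  field_simp

theorem En_nonneg' (hW : ∀ x, (W x).im < 0) (f : ι → ℝ) : 0 ≤ En A W f :=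
  Finset.sum_nonneg fun x _ => Finset.sum_nonneg fun y _ =>
    mul_nonneg (mul_nonneg (mul_nonneg (by linarith [hW x]) (by linarith [hW y]))
      (KK_nonneg _ _)) (sq_nonneg _)

theorem PhB_nonneg (hW : ∀ x, (W x).im < 0) (f : κ → ι → ℝ) : 0 ≤ PhB A W f := by
  refine Finset.sum_nonneg fun k _ => ?_
  unfold PhE
  have h1 := En_nonneg' (A := A) hW (f k)
  have h2 := En_nonneg' (A := A) hW (fun x => f k x ^ 2)
  linarith

theorem lsB_nonneg (hA : A.IsSymm) (hW : ∀ x, (W x).im < 0) (f : κ → ι → ℝ) (x : ι) :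
    0 ≤ lsB A W f x := by
  refine Finset.sum_nonneg fun k _ => ?_
  have h1 := lossS_nonneg hA hW (f k) x
  have h2 := lossS_nonneg hA hW (fun y => f k y ^ 2) x
  linarith

/-- **energy of the block from below** -/
theorem PhB_ge (hA : A.IsSymm) (hW : ∀ x, (W x).im < 0) {U : ι → ι → ℝ} {c : ℝ}
    {f : κ → ι → ℝ} {S : Finset ι}
    (h : ∀ x ∈ S, ∀ y, c * U x y ≤ ∑ k, (f k x - f k y) ^ 2) :
    4 * c * ∑ x ∈ S, (-(W x).im) * mm A W x * uU A W U x ≤ PhB A W f := by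
  have h1 : ∑ k, En A W (f k) =
      ∑ x, ∑ y, (-(W x).im) * (-(W y).im) * KK A W x y * ∑ k, (f k x - f k y) ^ 2 := by
    unfold En
    rw [Finset.sum_comm]
    refine Finset.sum_congr rfl fun x _ => ?_
    rw [Finset.sum_comm]
    refine Finset.sum_congr rfl fun y _ => ?_
    rw [Finset.mul_sum]
  have h0 : ∀ x y, 0 ≤ (-(W x).im) * (-(W y).im) * KK A W x y := fun x y =>
    mul_nonneg (mul_nonneg (by linarith [hW x]) (by linarith [hW y])) (KK_nonneg _ _)
  have h2 : c * ∑ x ∈ S, (-(W x).im) * mm A W x * uU A W U x ≤ ∑ k, En A W (f k) := by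
    rw [h1, Finset.mul_sum]
    refine le_trans (Finset.sum_le_sum fun x hx => ?_)
      (Finset.sum_le_sum_of_subset_of_nonneg (Finset.subset_univ S) fun x _ _ =>
        Finset.sum_nonneg fun y _ => mul_nonneg (h0 x y)
          (Finset.sum_nonneg fun k _ => sq_nonneg _))
    rw [mul_assoc (-(W x).im), mm_mul_uU hA hW, Finset.mul_sum, Finset.mul_sum]
    refine Finset.sum_le_sum fun y _ => ?_
    have h3 := mul_le_mul_of_nonneg_left (h x hx y) (h0 x y)
    calc c * (-(W x).im * (-(W y).im * KK A W x y * U x y))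
        = (-(W x).im) * (-(W y).im) * KK A W x y * (c * U x y) := by ring
      _ ≤ _ := h3
  have h3 : 4 * ∑ k, En A W (f k) ≤ PhB A W f := by
    unfold PhB PhE
    rw [Finset.mul_sum]
    refine Finset.sum_le_sum fun k _ => ?_
    have := En_nonneg' (A := A) hW (fun x => f k x ^ 2)
    linarith
  linarith

/-- **loss at a site of the block from below** -/
theorem lsB_ge (hA : A.IsSymm) (hW : ∀ x, (W x).im < 0) {U : ι → ι → ℝ} {c : ℝ} (hc : 0 ≤ c)
    (hU : ∀ x y, 0 ≤ U x y) {f : κ → ι → ℝ} (hf : ∀ k x, |f k x| ≤ 1) {x : ι}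
    (h : ∀ y, c * U x y ≤ ∑ k, (f k x - f k y) ^ 2) :
    c ^ 2 * (mm A W x * uU A W U x ^ 2) ≤ Fintype.card κ * lsB A W f x := by
  have hm := mm_pos hA hW x
  have h1 : ∀ k, Dq A W (f k) x ^ 2 ≤
      mm A W x * (4 * lossS A W (f k) x + lossS A W (fun y => f k y ^ 2) x) := by
    intro k
    have h2 := Dq_sq_le (A := A) (W := W) (hf k) x
    rw [Bq_eq hA hW, Bq_eq hA hW] at h2
    unfold lossS
    linarith
  have h2 : c * (mm A W x * uU A W U x) ≤ ∑ k, Dq A W (f k) x := by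
    rw [mm_mul_uU hA hW, Finset.mul_sum]
    unfold Dq
    rw [Finset.sum_comm]
    refine Finset.sum_le_sum fun y _ => ?_
    have h3 : 0 ≤ (-(W y).im) * KK A W x y :=
      mul_nonneg (by linarith [hW y]) (KK_nonneg _ _)
    have h4 := mul_le_mul_of_nonneg_left (h y) h3
    calc c * (-(W y).im * KK A W x y * U x y) = (-(W y).im) * KK A W x y * (c * U x y) := by ring
      _ ≤ _ := h4
      _ = _ := by
        rw [Finset.mul_sum]
        exact Finset.sum_congr rfl fun k _ => by ring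
  have h3 : 0 ≤ c * (mm A W x * uU A W U x) :=
    mul_nonneg hc (mul_nonneg hm.le (uU_nonneg hA hW hU x))
  have h4 : (∑ k, Dq A W (f k) x) ^ 2 ≤ Fintype.card κ * ∑ k, Dq A W (f k) x ^ 2 := by
    have := sq_sum_le_card_mul_sum_sq (s := (Finset.univ : Finset κ))
      (f := fun k => Dq A W (f k) x)
    rwa [Finset.card_univ] at this
  have h5 : ∑ k, Dq A W (f k) x ^ 2 ≤ mm A W x * lsB A W f x := by
    unfold lsB
    rw [Finset.mul_sum]
    exact Finset.sum_le_sum fun k _ => h1 k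
  have h6 : (c * (mm A W x * uU A W U x)) ^ 2 ≤
      Fintype.card κ * (mm A W x * lsB A W f x) :=
    ((pow_le_pow_left₀ h3 h2 2).trans h4).trans
      (mul_le_mul_of_nonneg_left h5 (Nat.cast_nonneg _))
  have h7 : mm A W x * (c ^ 2 * (mm A W x * uU A W U x ^ 2)) ≤
      mm A W x * (Fintype.card κ * lsB A W f x) := by nlinarith
  exact le_of_mul_le_mul_left h7 hm

/-- **rows in heavy blocks**, abstract form -/
theorem heavy (hA : A.IsSymm) (hW : ∀ x, (W x).im < 0) {U : ι → ι → ℝ} (hU : ∀ x y, 0 ≤ U x y)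
    {c c1 CF Ac n0 : ℝ} (hc : 0 ≤ c) (hc1 : 0 ≤ c1) (hCF : 0 ≤ CF) (hAc : 0 ≤ Ac)
    {β : Type*} [Fintype β] {f : β → κ → ι → ℝ} (hf : ∀ b k x, |f b k x| ≤ 1)
    {S : β → Finset ι} (hS : ∀ b, ∀ x ∈ S b, ∀ y, c * U x y ≤ ∑ k, (f b k x - f b k y) ^ 2)
    {w : ι → ℝ} (hw : ∀ x, 0 ≤ w x) (near : ι → Finset ι) (R : Finset ι)
    (hR1 : ∀ v ∈ R, c1 ≤ uU A W U v)
    (hR2 : ∀ v ∈ R, CF ≤ ∑ x ∈ near v, (-(W x).im) * mm A W x * uU A W U x)
    (hn : ∀ v ∈ R, n0 ≤ ((univ.filter fun b : β => v ∈ S b ∧ near v ⊆ S b).card : ℝ)) :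
    n0 * (c ^ 2 * c1 ^ 2 * min (4 * c * CF) Ac) * ∑ v ∈ R, w v * mm A W v ≤
      Fintype.card κ * ∑ b, min (PhB A W (f b)) Ac * ∑ x, w x * lsB A W (f b) x := by
  classical
  set a0 := min (4 * c * CF) Ac with ha0
  have ha : 0 ≤ a0 := le_min (by positivity) hAc
  have hcard : (0 : ℝ) ≤ Fintype.card κ := Nat.cast_nonneg _
  -- one block
  have h1 : ∀ b, ∑ v ∈ R.filter (fun v => v ∈ S b ∧ near v ⊆ S b),
      a0 * (w v * (c ^ 2 * (mm A W v * c1 ^ 2))) ≤
      Fintype.card κ * (min (PhB A W (f b)) Ac * ∑ x, w x * lsB A W (f b) x) := by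
    intro b
    have hmin0 : 0 ≤ min (PhB A W (f b)) Ac := le_min (PhB_nonneg hW _) hAc
    have h2 : ∀ v ∈ R.filter (fun v => v ∈ S b ∧ near v ⊆ S b),
        a0 * (w v * (c ^ 2 * (mm A W v * c1 ^ 2))) ≤
        min (PhB A W (f b)) Ac * (w v * (Fintype.card κ * lsB A W (f b) v)) := by
      intro v hv
      obtain ⟨hvR, hvS, hvn⟩ := mem_filter.1 hv
      have h3 : a0 ≤ min (PhB A W (f b)) Ac := by
        refine le_min ?_ (min_le_right _ _)
        refine (min_le_left _ _).trans ?_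
        refine le_trans ?_ (PhB_ge hA hW (hS b))
        refine mul_le_mul_of_nonneg_left ?_ (by positivity)
        refine (hR2 v hvR).trans ?_
        exact Finset.sum_le_sum_of_subset_of_nonneg hvn fun x _ _ =>
          mul_nonneg (mul_nonneg (by linarith [hW x]) (mm_pos hA hW x).le)
            (uU_nonneg hA hW hU x)
      have h4 : c ^ 2 * (mm A W v * c1 ^ 2) ≤ Fintype.card κ * lsB A W (f b) v := by
        refine le_trans ?_ (lsB_ge hA hW hc hU (hf b) (hS b v hvS))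
        refine mul_le_mul_of_nonneg_left ?_ (sq_nonneg _)
        exact mul_le_mul_of_nonneg_left (pow_le_pow_left₀ hc1 (hR1 v hvR) 2)
          (mm_pos hA hW v).le
      refine mul_le_mul h3 (mul_le_mul_of_nonneg_left h4 (hw v)) ?_ hmin0
      exact mul_nonneg (hw v) (mul_nonneg (sq_nonneg _)
        (mul_nonneg (mm_pos hA hW v).le (sq_nonneg _)))
    refine (Finset.sum_le_sum h2).trans ?_
    rw [← Finset.mul_sum]
    have h5 : ∑ v ∈ R.filter (fun v => v ∈ S b ∧ near v ⊆ S b),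
        w v * (Fintype.card κ * lsB A W (f b) v) ≤
        Fintype.card κ * ∑ x, w x * lsB A W (f b) x := by
      rw [Finset.mul_sum]
      refine le_trans (Finset.sum_le_sum_of_subset_of_nonneg (Finset.subset_univ _)
        fun x _ _ => mul_nonneg (hw x) (mul_nonneg hcard (lsB_nonneg hA hW _ _))) ?_
      exact le_of_eq (Finset.sum_congr rfl fun x _ => by ring)
    calc _ ≤ min (PhB A W (f b)) Ac * (Fintype.card κ * ∑ x, w x * lsB A W (f b) x) :=
          mul_le_mul_of_nonneg_left h5 hmin0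
      _ = _ := by ring
  -- sum over the blocks
  rw [Finset.mul_sum (s := (univ : Finset β))]
  refine le_trans ?_ (Finset.sum_le_sum fun b _ => h1 b)
  have h6 : ∑ b : β, ∑ v ∈ R.filter (fun v => v ∈ S b ∧ near v ⊆ S b),
      a0 * (w v * (c ^ 2 * (mm A W v * c1 ^ 2))) =
      ∑ v ∈ R, ((univ.filter fun b : β => v ∈ S b ∧ near v ⊆ S b).card : ℝ) *
        (a0 * (w v * (c ^ 2 * (mm A W v * c1 ^ 2)))) := by
    simp only [Finset.sum_filter]
    rw [Finset.sum_comm]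
    refine Finset.sum_congr rfl fun v _ => ?_
    rw [← Finset.sum_filter, Finset.sum_const, nsmul_eq_mul]
  rw [h6, Finset.mul_sum]
  refine Finset.sum_le_sum fun v hv => ?_
  have h7 : 0 ≤ a0 * (w v * (c ^ 2 * (mm A W v * c1 ^ 2))) :=
    mul_nonneg ha (mul_nonneg (hw v) (mul_nonneg (sq_nonneg _)
      (mul_nonneg (mm_pos hA hW v).le (sq_nonneg _))))
  calc n0 * (c ^ 2 * c1 ^ 2 * a0) * (w v * mm A W v)
      = n0 * (a0 * (w v * (c ^ 2 * (mm A W v * c1 ^ 2)))) := by ring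
    _ ≤ _ := mul_le_mul_of_nonneg_right (hn v hv) h7

/-! ### all translates of the torus blocks -/

section torus

variable {N : ℕ} [NeZero N]

/-- **rows in heavy blocks, torus form**: `near v = {x : nrm (v - x) ≤ h}`, `2 h ≤ ρ` -/
theorem heavy_torus {A : Matrix (Tor N) (Tor N) ℝ} {W : Tor N → ℂ} (hA : A.IsSymm)
    (hW : ∀ x, (W x).im < 0) {U : Tor N → Tor N → ℝ} (hU : ∀ x y, 0 ≤ U x y)
    {c c1 CF Ac : ℝ} (hc : 0 ≤ c) (hc1 : 0 ≤ c1) (hCF : 0 ≤ CF) (hAc : 0 ≤ Ac)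
    {ρ h : ℕ} (hρ : 0 < ρ) (hN : 12 * ρ < N) (hh : 2 * h ≤ ρ)
    (hUc : ∀ x y, c * U x y ≤ min ((nrm (x - y) : ℝ) ^ 2 / (ρ : ℝ) ^ 2) 1 / 64)
    {w : Tor N → ℝ} (hw : ∀ x, 0 ≤ w x) (R : Finset (Tor N))
    (hR1 : ∀ v ∈ R, c1 ≤ uU A W U v)
    (hR2 : ∀ v ∈ R, CF ≤ ∑ x ∈ univ.filter (fun x : Tor N => nrm (v - x) ≤ h),
      (-(W x).im) * mm A W x * uU A W U x) :
    (ρ : ℝ) ^ 2 * (c ^ 2 * c1 ^ 2 * min (4 * c * CF) Ac) * ∑ v ∈ R, w v * mm A W v ≤
      3 * ∑ z : Tor N, min (PhB A W (fB z ρ)) Ac * ∑ x, w x * lsB A W (fB z ρ) x := by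
  have h1 := heavy (κ := Fin 3) (n0 := (ρ : ℝ) ^ 2) hA hW hU hc hc1 hCF hAc
    (f := fun z => fB z ρ) (fun b k x => abs_fB_le_one b ρ k x)
    (S := fun z => univ.filter fun x : Tor N => nrm (x - z) ≤ ρ)
    (fun b x hx y => (hUc x y).trans (fB_lower hρ hN (mem_filter.1 hx).2 y)) hw
    (fun v => univ.filter fun x : Tor N => nrm (v - x) ≤ h) R hR1 hR2 ?_
  · rw [Fintype.card_fin] at h1
    push_cast at h1
    exact h1
  · intro v _
    refine (card_centres (by omega) v).trans ?_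
    have h2 : (univ.filter fun c : Tor N => 2 * nrm (v - c) ≤ ρ) ⊆
        (univ.filter fun b : Tor N => v ∈ (univ.filter fun x : Tor N => nrm (x - b) ≤ ρ) ∧
          (univ.filter fun x : Tor N => nrm (v - x) ≤ h) ⊆
            (univ.filter fun x : Tor N => nrm (x - b) ≤ ρ)) := by
      intro b hb
      have hb' := (mem_filter.1 hb).2
      rw [mem_filter]
      refine ⟨mem_univ _, ?_, ?_⟩
      · rw [mem_filter]
        exact ⟨mem_univ _, by omega⟩
      · intro x hx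
        have hx' := (mem_filter.1 hx).2
        rw [mem_filter]
        refine ⟨mem_univ _, ?_⟩
        have h3 : nrm (x - b) ≤ nrm (x - v) + nrm (v - b) := by
          have := nrm_add_le (x - v) (v - b)
          rwa [sub_add_sub_cancel] at this
        rw [nrm_sub_comm x v] at h3
        omega
    exact_mod_cast Finset.card_le_card h2

end torus

end P365T2.H784
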