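import Vale.Agent.P365.T2.H213.Spec
import Vale.Agent.P365.T2.H211.Psi
import Vale.Agent.P365.T2.H784.Heavy

/-!
# P365-T2: the hypothesis (k7) = `Q0` (helper784)

Uniform integrability of the block energies at the beginning of the stage: block energy
`PhB (fB z ρ) = ∑ k : Fin 3, (4 En f + En f²)` of the block with centre `z : Tor N` and scale `ρ`
(all translates), `psi A F = F² / (A + F)` (211), modulus `gf` given in advance.
-/

set_option linter.all false

namespace P365T2.H784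

open P365L P365O P365T1 P365L.TL Finset
open Vale.Agent.P365.J376 P365T2.H213 P365T2.H211

variable {N : ℕ} [NeZero N]

/-- `∑ z, Av psi A (PhB (fB z ρ))` : all the blocks of scale `ρ`, level `A`, time `τ` -/
noncomputable def Qsc (W : StW N) (E A : ℝ) (ρ : ℕ) (τ : ℝ) : ℝ :=
  ∑ z : Tor N, W.Av E τ fun _ V => psi A (PhB (AT N) V (fB z ρ))

/-- **(k7)** -/
def Q0 (N : ℕ) [NeZero N] (W : StW N) (E : ℝ) (gf : ℝ → ℝ) (η : ℝ) : Prop :=
  ∀ r ∈ Set.Icc η 1, ∀ ρ : ℕ, 0 < ρ → 12 * ρ < N → Qsc W E (gf r) ρ 0 ≤ r * (N : ℝ) ^ 2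

/-- energy of all the blocks of scale `ρ` -/
noncomputable def Esc (W : StW N) (E : ℝ) (ρ : ℕ) (τ : ℝ) : ℝ :=
  ∑ z : Tor N, W.Av E τ fun _ V => PhB (AT N) V (fB z ρ)

/-- **dissipation of the scale `ρ` at level `A`** -/
noncomputable def Csc (W : StW N) (E A : ℝ) (ρ : ℕ) (τ : ℝ) : ℝ :=
  ∑ z : Tor N, W.Av E τ fun l V =>
    min (PhB (AT N) V (fB z ρ)) A / A * ∑ x, wT W.w τ l x * lsB (AT N) V (fB z ρ) x

end P365T2.H784
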