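import Vale.Agent.P365.T2.H784.Q0

/-!
# P365-T2: the blocks of one scale as ONE Lipschitz family (helper784)

* `famB N ρ : Tor N × Fin 3 → Tor N → ℝ`, `famQ` = its squares; `VecLip (famB N ρ) 5`,
  `VecLip (famQ N ρ) 10`;
* `Esc_eq : Esc = 4 Φ (famB) + Φ (famQ)`, `Esc_le : Esc ≤ 200 C1 N²`;
* `psi_anti`, `Qsc_anti`, `Qsc_le_Esc`, `Qsc_nonneg`, `Csc_nonneg`;
* `sum_lsB` : the one-site loss summed over the blocks;
* `YgB_le` : off-resonant energy of all the blocks of one scale, from the hub.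
-/

set_option linter.all false

namespace P365T2.H784

open P365L P365O P365T1 P365L.TL Finset MeasureTheory Filter
open Vale.Agent.P365.J376 P365T2.H213 P365T2.H211 P365V4

section fam

variable (N : ℕ) [NeZero N]

/-- all the blocks of scale `ρ` -/
noncomputable def famB (ρ : ℕ) : Tor N × Fin 3 → Tor N → ℝ := fun k => fB k.1 ρ k.2

/-- their squares -/
noncomputable def famQ (ρ : ℕ) : Tor N × Fin 3 → Tor N → ℝ := fun k x => fB k.1 ρ k.2 x ^ 2

variable {N}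

theorem famB_sum {ρ : ℕ} (hρ : 0 < ρ) (x y : Tor N) :
    ∑ k, (famB N ρ k x - famB N ρ k y) ^ 2 ≤ 24 * (nrm (x - y) : ℝ) ^ 2 := by
  rw [Fintype.sum_prod_type]
  exact fB_sum hρ x y

theorem famQ_sum {ρ : ℕ} (hρ : 0 < ρ) (x y : Tor N) :
    ∑ k, (famQ N ρ k x - famQ N ρ k y) ^ 2 ≤ 96 * (nrm (x - y) : ℝ) ^ 2 := by
  have h1 : ∀ k : Tor N × Fin 3, (famQ N ρ k x - famQ N ρ k y) ^ 2 ≤
      4 * (famB N ρ k x - famB N ρ k y) ^ 2 := by
    intro k
    have e : famQ N ρ k x - famQ N ρ k y =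
        (famB N ρ k x + famB N ρ k y) * (famB N ρ k x - famB N ρ k y) := by
      unfold famQ famB; ring
    have a1 := abs_le.1 (abs_fB_le_one k.1 ρ k.2 x)
    have a2 := abs_le.1 (abs_fB_le_one k.1 ρ k.2 y)
    rw [e, mul_pow]
    refine mul_le_mul_of_nonneg_right ?_ (sq_nonneg _)
    unfold famB
    nlinarith
  refine (Finset.sum_le_sum fun k _ => h1 k).trans ?_
  rw [← Finset.mul_sum]
  have := famB_sum hρ x y
  linarith

theorem famB_lip {ρ : ℕ} (hρ : 0 < ρ) : VecLip (famB N ρ) 5 := by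
  intro x y
  have := famB_sum hρ x y
  have h0 : (0 : ℝ) ≤ (nrm (x - y) : ℝ) ^ 2 := sq_nonneg _
  linarith

theorem famQ_lip {ρ : ℕ} (hρ : 0 < ρ) : VecLip (famQ N ρ) 10 := by
  intro x y
  have := famQ_sum hρ x y
  have h0 : (0 : ℝ) ≤ (nrm (x - y) : ℝ) ^ 2 := sq_nonneg _
  linarith

theorem sum_PhB (A : Matrix (Tor N) (Tor N) ℝ) (V : Tor N → ℂ) (ρ : ℕ) :
    ∑ z : Tor N, PhB A V (fB z ρ) =
      4 * ∑ k, En A V (famB N ρ k) + ∑ k, En A V (famQ N ρ k) := by
  rw [Finset.mul_sum, ← Finset.sum_add_distrib]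
  exact (Fintype.sum_prod_type (fun k : Tor N × Fin 3 =>
    4 * En A V (famB N ρ k) + En A V (famQ N ρ k))).symm

theorem sum_lsB (A : Matrix (Tor N) (Tor N) ℝ) (V : Tor N → ℂ) (ρ : ℕ) (x : Tor N) :
    ∑ z : Tor N, lsB A V (fB z ρ) x =
      4 * ∑ k, lossS A V (famB N ρ k) x + ∑ k, lossS A V (famQ N ρ k) x := by
  rw [Finset.mul_sum, ← Finset.sum_add_distrib]
  exact (Fintype.sum_prod_type (fun k : Tor N × Fin 3 =>
    4 * lossS A V (famB N ρ k) x + lossS A V (famQ N ρ k) x)).symm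

end fam

/-! ### the function `psi` -/

theorem psi_anti {A A' F : ℝ} (hA : 0 < A) (hAA : A ≤ A') (hF : 0 ≤ F) : psi A' F ≤ psi A F := by
  unfold psi
  exact div_le_div_of_nonneg_left (sq_nonneg _) (by linarith) (by linarith)

theorem psi_le_self {A F : ℝ} (hA : 0 < A) (hF : 0 ≤ F) : psi A F ≤ F := by
  unfold psi
  rw [div_le_iff₀ (by linarith)]
  nlinarith

theorem measurable_psi (A : ℝ) : Measurable (psi A) := by
  unfold psi
  exact (measurable_id.pow_const 2).div (measurable_id.const_add A)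

/-! ### integrability -/

section int

variable {ι : Type*} [Fintype ι] [DecidableEq ι] {A : Matrix ι ι ℝ} {κ : Type*} [Fintype κ]

theorem integrable_En1 (hA : A.IsSymm) (m : Measure (ι → ℝ)) [IsFiniteMeasure m] (E : ℝ)
    {e : ι → ℝ} (he : ∀ x, 0 < e x) (f : ι → ℝ) :
    Integrable (fun v => En A (WV E e v) f) m := by
  have := integrable_sum_En hA m E he (κ := Unit) (fun _ => f)
  simpa using this

theorem integrable_PhB (hA : A.IsSymm) (m : Measure (ι → ℝ)) [IsFiniteMeasure m] (E : ℝ)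
    {e : ι → ℝ} (he : ∀ x, 0 < e x) (f : κ → ι → ℝ) :
    Integrable (fun v => PhB A (WV E e v) f) m := by
  unfold PhB PhE
  exact integrable_finset_sum _ fun k _ =>
    ((integrable_En1 hA m E he (f k)).const_mul 4).add
      (integrable_En1 hA m E he (fun x => f k x ^ 2))

theorem integrable_psi_PhB (hA : A.IsSymm) (m : Measure (ι → ℝ)) [IsFiniteMeasure m] (E : ℝ)
    {e : ι → ℝ} (he : ∀ x, 0 < e x) (f : κ → ι → ℝ) {a : ℝ} (ha : 0 < a) :
    Integrable (fun v => psi a (PhB A (WV E e v) f)) m := by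
  have h1 := integrable_PhB hA m E he f
  refine Integrable.mono' h1
    ((measurable_psi a).comp_aemeasurable h1.aestronglyMeasurable.aemeasurable).aestronglyMeasurable
    (Eventually.of_forall fun v => ?_)
  have h0 := PhB_nonneg (A := A) (WV_neg (E := E) he v) f
  rw [Real.norm_eq_abs, abs_of_nonneg (psi_nonneg ha h0)]
  exact psi_le_self ha h0

theorem measurable_lsB_WV (E : ℝ) (e : ι → ℝ) (f : κ → ι → ℝ) (x : ι) :
    Measurable fun v : ι → ℝ => lsB A (WV E e v) f x := by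
  unfold lsB
  exact Finset.measurable_sum _ fun k _ =>
    ((measurable_lossS_WV E e (f k) x).const_mul 4).add
      (measurable_lossS_WV E e (fun y => f k y ^ 2) x)

theorem integrable_lsB (hA : A.IsSymm) (m : Measure (ι → ℝ)) [IsFiniteMeasure m] (E : ℝ)
    {e : ι → ℝ} (he : ∀ x, 0 < e x) (f : κ → ι → ℝ) (x : ι) :
    Integrable (fun v => lsB A (WV E e v) f x) m := by
  unfold lsB
  exact integrable_finset_sum _ fun k _ =>
    ((integrable_lossS hA m E he (f k) x).const_mul 4).add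
      (integrable_lossS hA m E he (fun y => f k y ^ 2) x)

/-- the dissipation of one block is integrable -/
theorem integrable_dis (hA : A.IsSymm) (m : Measure (ι → ℝ)) [IsFiniteMeasure m] (E : ℝ)
    {e : ι → ℝ} (he : ∀ x, 0 < e x) (f : κ → ι → ℝ) {a : ℝ} (ha : 0 < a) {w : ι → ℝ}
    (hw : ∀ x, 0 ≤ w x) :
    Integrable (fun v => min (PhB A (WV E e v) f) a / a * ∑ x, w x * lsB A (WV E e v) f x) m := by
  have h1 : Integrable (fun v => ∑ x, w x * lsB A (WV E e v) f x) m :=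
    integrable_finset_sum _ fun x _ => (integrable_lsB hA m E he f x).const_mul _
  have h2 := integrable_PhB hA m E he f
  refine Integrable.mono' h1 ?_ (Eventually.of_forall fun v => ?_)
  · exact (((h2.aestronglyMeasurable.aemeasurable.min aemeasurable_const).div_const a).mul
      h1.aestronglyMeasurable.aemeasurable).aestronglyMeasurable
  · have h0 := PhB_nonneg (A := A) (WV_neg (E := E) he v) f
    have h3 : 0 ≤ ∑ x, w x * lsB A (WV E e v) f x := Finset.sum_nonneg fun x _ =>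
      mul_nonneg (hw x) (lsB_nonneg hA (WV_neg he v) f x)
    have h4 : 0 ≤ min (PhB A (WV E e v) f) a / a := div_nonneg (le_min h0 ha.le) ha.le
    have h5 : min (PhB A (WV E e v) f) a / a ≤ 1 := (div_le_one ha).2 (min_le_right _ _)
    rw [Real.norm_eq_abs, abs_of_nonneg (mul_nonneg h4 h3)]
    exact mul_le_of_le_one_left h3 h5

end int

/-! ### over a stage -/

section stw

variable {N : ℕ} [NeZero N] {W : StW N} {E lam C1 η : ℝ}

theorem AT_symm' : (AT N).IsSymm := AT_symm N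

theorem eT_pos' (hW : W.Ok lam E C1 η) (τ : ℝ) (l : Tor N → W.Λ) (x : Tor N) :
    0 < eT W.u W.w τ l x := by
  obtain ⟨b, hb, hbu⟩ := hW.u_pos
  exact eT_pos hb hbu hW.w_nonneg τ l x

theorem Av_nonneg (hW : W.Ok lam E C1 η) (τ : ℝ) {G : (Tor N → W.Λ) → (Tor N → ℂ) → ℝ}
    (hG : ∀ l v, 0 ≤ G l (WV E (eT W.u W.w τ l) v)) : 0 ≤ W.Av E τ G := by
  unfold StW.Av AvG
  exact Finset.sum_nonneg fun l _ => mul_nonneg (Finset.prod_nonneg fun x _ => hW.p_nonneg _)
    (Ex_nonneg _ _ _ fun v => hG l v)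

theorem Av_sum {β : Type*} (s : Finset β) (τ : ℝ) {G : β → (Tor N → W.Λ) → (Tor N → ℂ) → ℝ}
    (hG : ∀ b l, Integrable (fun v => G b l (WV E (eT W.u W.w τ l) v))
      (Measure.pi fun x => W.ν (l x))) :
    W.Av E τ (fun l V => ∑ b ∈ s, G b l V) = ∑ b ∈ s, W.Av E τ (G b) := by
  unfold StW.Av AvG Ex
  rw [Finset.sum_comm]
  refine Finset.sum_congr rfl fun l _ => ?_
  rw [integral_finset_sum _ fun b _ => hG b l, Finset.mul_sum]

theorem Av_add (τ : ℝ) {G G' : (Tor N → W.Λ) → (Tor N → ℂ) → ℝ}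
    (hG : ∀ l, Integrable (fun v => G l (WV E (eT W.u W.w τ l) v))
      (Measure.pi fun x => W.ν (l x)))
    (hG' : ∀ l, Integrable (fun v => G' l (WV E (eT W.u W.w τ l) v))
      (Measure.pi fun x => W.ν (l x))) :
    W.Av E τ (fun l V => G l V + G' l V) = W.Av E τ G + W.Av E τ G' := by
  unfold StW.Av AvG Ex
  rw [← Finset.sum_add_distrib]
  refine Finset.sum_congr rfl fun l _ => ?_
  rw [integral_add (hG l) (hG' l), mul_add]

theorem Av_const_mul (τ c : ℝ) (G : (Tor N → W.Λ) → (Tor N → ℂ) → ℝ) :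
    W.Av E τ (fun l V => c * G l V) = c * W.Av E τ G := by
  unfold StW.Av AvG Ex
  rw [Finset.mul_sum]
  refine Finset.sum_congr rfl fun l _ => ?_
  rw [integral_const_mul]
  ring

/-- **energy of all the blocks of one scale** -/
theorem Esc_eq (hW : W.Ok lam E C1 η) (ρ : ℕ) (τ : ℝ) :
    Esc W E ρ τ = 4 * W.Phi E (famB N ρ) τ + W.Phi E (famQ N ρ) τ := by
  have := hW.prob
  have h1 : ∀ (z : Tor N) (l : Tor N → W.Λ), Integrable
      (fun v => PhB (AT N) (WV E (eT W.u W.w τ l) v) (fB z ρ))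
      (Measure.pi fun x => W.ν (l x)) := fun z l =>
    integrable_PhB AT_symm' _ E (eT_pos' hW τ l) _
  unfold Esc
  rw [← Av_sum Finset.univ τ h1]
  unfold StW.Phi PhiG
  have h2 : (fun (l : Tor N → W.Λ) (V : Tor N → ℂ) => ∑ z : Tor N, PhB (AT N) V (fB z ρ)) =
      fun l V => 4 * (∑ k, En (AT N) V (famB N ρ k)) + ∑ k, En (AT N) V (famQ N ρ k) := by
    funext l V
    exact sum_PhB _ _ _
  rw [h2, Av_add τ (fun l => (integrable_sum_En AT_symm' _ E (eT_pos' hW τ l) _).const_mul 4)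
    (fun l => integrable_sum_En AT_symm' _ E (eT_pos' hW τ l) _), Av_const_mul]
  rfl

theorem Esc_le (hW : W.Ok lam E C1 η) {ρ : ℕ} (hρ : 0 < ρ) {τ : ℝ} (hτ : τ ∈ Set.Icc 0 W.S) :
    Esc W E ρ τ ≤ 200 * C1 * (N : ℝ) ^ 2 := by
  rw [Esc_eq hW]
  have h1 := hW.en_le τ hτ _ (famB N ρ) 5 (by norm_num) (famB_lip hρ)
  have h2 := hW.en_le τ hτ _ (famQ N ρ) 10 (by norm_num) (famQ_lip hρ)
  nlinarith

theorem Qsc_nonneg (hW : W.Ok lam E C1 η) {A : ℝ} (hA : 0 < A) (ρ : ℕ) (τ : ℝ) :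
    0 ≤ Qsc W E A ρ τ :=
  Finset.sum_nonneg fun z _ => Av_nonneg hW τ fun l v =>
    psi_nonneg hA (PhB_nonneg (WV_neg (eT_pos' hW τ l) v) _)

theorem Qsc_anti (hW : W.Ok lam E C1 η) {A A' : ℝ} (hA : 0 < A) (hAA : A ≤ A') (ρ : ℕ) (τ : ℝ) :
    Qsc W E A' ρ τ ≤ Qsc W E A ρ τ := by
  have := hW.prob
  exact Finset.sum_le_sum fun z _ => AvG_mono hW.p_nonneg
    (fun l => integrable_psi_PhB AT_symm' _ E (eT_pos' hW τ l) _ (hA.trans_le hAA))
    (fun l => integrable_psi_PhB AT_symm' _ E (eT_pos' hW τ l) _ hA)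
    (fun l v => psi_anti hA hAA (PhB_nonneg (WV_neg (eT_pos' hW τ l) v) _))

theorem Qsc_le_Esc (hW : W.Ok lam E C1 η) {A : ℝ} (hA : 0 < A) (ρ : ℕ) (τ : ℝ) :
    Qsc W E A ρ τ ≤ Esc W E ρ τ := by
  have := hW.prob
  exact Finset.sum_le_sum fun z _ => AvG_mono hW.p_nonneg
    (fun l => integrable_psi_PhB AT_symm' _ E (eT_pos' hW τ l) _ hA)
    (fun l => integrable_PhB AT_symm' _ E (eT_pos' hW τ l) _)
    (fun l v => psi_le_self hA (PhB_nonneg (WV_neg (eT_pos' hW τ l) v) _))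

theorem Csc_nonneg (hW : W.Ok lam E C1 η) {A : ℝ} (hA : 0 < A) (ρ : ℕ) (τ : ℝ) :
    0 ≤ Csc W E A ρ τ := by
  refine Finset.sum_nonneg fun z _ => Av_nonneg hW τ fun l v => ?_
  have hn := WV_neg (E := E) (eT_pos' hW τ l) v
  exact mul_nonneg (div_nonneg (le_min (PhB_nonneg hn _) hA.le) hA.le)
    (Finset.sum_nonneg fun x _ => mul_nonneg (wT_nonneg hW.w_nonneg τ l x)
      (lsB_nonneg AT_symm' hn _ x))

/-- **off-resonant energy of all the blocks of one scale, from the hub** -/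
theorem YgB_le (hW : W.Ok lam E C1 η) (hη : 0 ≤ η) {ρ : ℕ} (hρ : 0 < ρ) {τ : ℝ}
    (hτ : τ ∈ Set.Icc 0 W.S) (hC1 : 0 ≤ C1) (hS : 0 < W.S) :
    4 * W.Yg E (famB N ρ) τ + W.Yg E (famQ N ρ) τ ≤
      200 * (C1 + 1) * (η / W.S ^ 8) * (N : ℝ) ^ 2 := by
  have h1 := hW.en_le τ hτ _ (famB N ρ) 5 (by norm_num) (famB_lip hρ)
  have h2 := hW.en_le τ hτ _ (famQ N ρ) 10 (by norm_num) (famQ_lip hρ)
  have h3 := hW.hub τ hτ _ (famB N ρ) 5 (by norm_num) (famB_lip hρ)
  have h4 := hW.hub τ hτ _ (famQ N ρ) 10 (by norm_num) (famQ_lip hρ)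
  have h5 : 0 ≤ η / W.S ^ 8 := by positivity
  have h6 := mul_le_mul_of_nonneg_left h1 h5
  have h7 := mul_le_mul_of_nonneg_left h2 h5
  nlinarith

end stw

end P365T2.H784
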