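import Vale.Agent.P365.T2.H784.Lip

/-!
# P365-T2: `Q0` is monotone in the modulus (helper784)
-/

set_option linter.all false

namespace P365T2.H784

open P365L P365O P365T1 P365L.TL Finset
open Vale.Agent.P365.J376 P365T2.H213 P365T2.H211

variable {N : ℕ} [NeZero N] {W : StW N} {E lam C1 η η' : ℝ} {gf gf' : ℝ → ℝ}

/-- a larger modulus gives a weaker hypothesis -/
theorem Q0_mono (hW : W.Ok lam E C1 η') (h1 : ∀ r ∈ Set.Icc η 1, 0 < gf r)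
    (h : ∀ r ∈ Set.Icc η 1, gf r ≤ gf' r) (hQ : Q0 N W E gf η) : Q0 N W E gf' η :=
  fun r hr ρ hρ hN => (Qsc_anti hW (h1 r hr) (h r hr) ρ 0).trans (hQ r hr ρ hρ hN)

/-- a larger range of tolerances is a stronger hypothesis -/
theorem Q0_anti_eta (h : η ≤ η') (hQ : Q0 N W E gf η) : Q0 N W E gf η' :=
  fun r hr ρ hρ hN => hQ r ⟨h.trans hr.1, hr.2⟩ ρ hρ hN

/-- the modulus enlarged by `K / r` -/
noncomputable def gfK (K : ℝ) (gf : ℝ → ℝ) (r : ℝ) : ℝ := max (gf r) (K / r)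

theorem gfK_ge (K : ℝ) (gf : ℝ → ℝ) (r : ℝ) : gf r ≤ gfK K gf r := le_max_left _ _

theorem gfK_ge' (K : ℝ) (gf : ℝ → ℝ) (r : ℝ) : K / r ≤ gfK K gf r := le_max_right _ _

theorem one_le_gfK {K : ℝ} (h : ∀ r, 1 ≤ gf r) (r : ℝ) : 1 ≤ gfK K gf r :=
  (h r).trans (gfK_ge K gf r)

theorem Q0_gfK (hW : W.Ok lam E C1 η') (h1 : ∀ r, 1 ≤ gf r) (K : ℝ)
    (hQ : Q0 N W E gf η) : Q0 N W E (gfK K gf) η :=
  Q0_mono hW (fun r _ => one_pos.trans_le (h1 r)) (fun r _ => gfK_ge K gf r) hQ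

end P365T2.H784
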